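import Vale.Agent.P139Z.ODefs

/-! One step of the level recursion in terms of the quantities `X` and `N`. -/

open Complex
open scoped ComplexConjugate

namespace Vale.Agent.P139Z.AlgL

/-- The real part form. -/
noncomputable def XX (b : ℝ) (P Y : ℂ) : ℝ := (conj Y * P).re + b * ‖Y‖ ^ 2

/-- The positive form. -/
noncomputable def NN (b : ℝ) (P Y : ℂ) : ℝ := ‖P + b * Y‖ ^ 2 + b ^ 2 * ‖Y‖ ^ 2

theorem nsq (z : ℂ) : ‖z‖ ^ 2 = z.re ^ 2 + z.im ^ 2 := by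
  rw [← Complex.normSq_eq_norm_sq, Complex.normSq_apply]
  ring

theorem two_mul_XX_le (b : ℝ) (P Y : ℂ) : 2 * b * XX b P Y ≤ NN b P Y := by
  unfold XX NN
  simp only [nsq, add_re, add_im, mul_re, mul_im, ofReal_re, ofReal_im, conj_re, conj_im]
  nlinarith [sq_nonneg P.re, sq_nonneg P.im]

theorem NN_pos {b : ℝ} (hb : 0 < b) {P Y : ℂ} (h : ¬(P = 0 ∧ Y = 0)) : 0 < NN b P Y := by
  unfold NN
  by_cases hY : Y = 0
  · have hP : P ≠ 0 := fun hP => h ⟨hP, hY⟩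
    subst hY
    have := norm_pos_iff.2 hP
    simp only [mul_zero, add_zero, norm_zero]
    positivity
  · have := norm_pos_iff.2 hY
    positivity

variable {A : ℂ} {B : ℕ} {Z b : ℝ} {P Y : ℕ → ℂ}

theorem X_succ (h : Lev A B Z P Y) (hb : (B : ℝ) = 2 * b + 1) (n : ℕ) :
    XX b (P (n + 1)) (Y (n + 1)) = ((A.re + n - b) ^ 2 + A.im ^ 2 + b ^ 2) * XX b (P n) (Y n)
      + (A.re + n - b) * NN b (P n) (Y n) := by
  rw [h.recP, h.recY]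
  unfold XX NN
  simp only [nsq, add_re, add_im, mul_re, mul_im, sub_re, sub_im, ofReal_re, ofReal_im, conj_re,
    conj_im, I_re, I_im, natCast_re, natCast_im, one_re, one_im, hb]
  ring

theorem N_succ (h : Lev A B Z P Y) (hb : (B : ℝ) = 2 * b + 1) (n : ℕ) :
    ‖P (n + 1) + b * Y (n + 1) + I * Z * Y (n + 1)‖ ^ 2 + b ^ 2 * ‖Y (n + 1)‖ ^ 2
      = ((A.re + n - b) ^ 2 + A.im ^ 2 + b ^ 2) * NN b (P n) (Y n)
        + 2 * b * (A.re + n - b) * (2 * b * XX b (P n) (Y n)) := by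
  rw [h.recP, h.recY]
  unfold XX NN
  simp only [nsq, add_re, add_im, mul_re, mul_im, sub_re, sub_im, ofReal_re, ofReal_im, conj_re,
    conj_im, I_re, I_im, natCast_re, natCast_im, one_re, one_im, hb]
  ring

theorem shear {e : ℝ} (he : 0 < e) (hZ : (1 + e) * Z ^ 2 ≤ e ^ 2 * b ^ 2) (p y : ℂ) :
    ‖p + I * Z * y‖ ^ 2 + b ^ 2 * ‖y‖ ^ 2 ≤ (1 + e) * (‖p‖ ^ 2 + b ^ 2 * ‖y‖ ^ 2) := by
  have h1 : ‖p + I * Z * y‖ ≤ ‖p‖ + |Z| * ‖y‖ := by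
    refine (norm_add_le _ _).trans ?_
    simp
  have h2 : ‖p + I * Z * y‖ ^ 2 ≤ (‖p‖ + |Z| * ‖y‖) ^ 2 := by
    gcongr
  have h3 : (|Z| * ‖y‖) ^ 2 = Z ^ 2 * ‖y‖ ^ 2 := by rw [mul_pow, sq_abs]
  have h4 : (1 + e) * Z ^ 2 * ‖y‖ ^ 2 ≤ e ^ 2 * b ^ 2 * ‖y‖ ^ 2 := by
    gcongr
  have h5 : e * ((‖p‖ + |Z| * ‖y‖) ^ 2 + b ^ 2 * ‖y‖ ^ 2)
      ≤ e * ((1 + e) * (‖p‖ ^ 2 + b ^ 2 * ‖y‖ ^ 2)) := by
    nlinarith [sq_nonneg (e * ‖p‖ - |Z| * ‖y‖)]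
  have h6 := le_of_mul_le_mul_left h5 he
  linarith

/-- The scalar part of one step. -/
theorem scalar {u N w Q c t k : ℝ} (hN : 0 < N) (hu : -(c * N) ≤ u) (hQ : 0 < Q)
    (hw : -Q ≤ w) (ht : t * Q ≤ w) (hk0 : 0 ≤ k) (hk1 : k ≤ 1) (hc1 : c ≤ 1)
    (hs : c - t ≤ k * (1 - c * t)) : 0 ≤ (Q * u + w * N) + k * (Q * N + w * u) := by
  have h1 : 0 ≤ Q + k * w := by nlinarith
  have h2 : 0 ≤ 1 - c * k := by nlinarith
  have h3 : -(c * N) * (Q + k * w) ≤ u * (Q + k * w) := mul_le_mul_of_nonneg_right hu h1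
  have h4 : t * Q * (1 - c * k) ≤ w * (1 - c * k) := mul_le_mul_of_nonneg_right ht h2
  have h5 : 0 ≤ Q * (t * (1 - c * k) + k - c) := mul_nonneg hQ.le (by nlinarith)
  have h6 : 0 ≤ N * (w * (1 - c * k) + Q * (k - c)) := mul_nonneg hN.le (by nlinarith)
  nlinarith

/-- The invariant of the chain. -/
def Inv (A : ℂ) (b : ℝ) (P Y : ℕ → ℂ) (n : ℕ) (γ : ℝ) : Prop :=
  0 < NN b (P n) (Y n) ∧
    -(2 * b / (A.im ^ 2 + b ^ 2) * γ * NN b (P n) (Y n)) ≤ 2 * b * XX b (P n) (Y n)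

/-- Standing assumptions of the chain. -/
structure Par (A : ℂ) (B : ℕ) (Z b e τ₀ q₀ : ℝ) : Prop where
  hb : (B : ℝ) = 2 * b + 1
  b10 : 10 ≤ b
  lo : -(5 / 2) ≤ A.re - b
  hi : A.re - b ≤ 0
  he : 0 < e
  hZ : (1 + e) * Z ^ 2 ≤ e ^ 2 * b ^ 2
  hτ : 2 * b / (A.im ^ 2 + b ^ 2) ≤ τ₀
  q0 : 0 < q₀
  hq : q₀ ≤ A.im ^ 2 + b ^ 2

variable {e τ₀ q₀ : ℝ}

theorem Par.t_le (H : Par A B Z b e τ₀ q₀) (n : ℕ) {ν : ℝ} (h1 : ν ≤ n - 5 / 2)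
    (h2 : ν * (1 + (n : ℝ) ^ 2 / q₀) ≤ n - 5 / 2) (h3 : 0 < ν → 3 ≤ n) :
    2 * b / (A.im ^ 2 + b ^ 2) * ν * ((A.re + n - b) ^ 2 + A.im ^ 2 + b ^ 2)
      ≤ 2 * b * (A.re + n - b) := by
  have hb := H.b10
  have hq := H.hq
  have hq0 := H.q0
  set q := A.im ^ 2 + b ^ 2 with hqd
  have hqp : 0 < q := by linarith
  have hlo := H.lo
  have hhi := H.hi
  have key : ν * ((A.re + n - b) ^ 2 + q) ≤ (A.re + n - b) * q := by
    rcases le_or_gt ν 0 with hν | hν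
    · nlinarith [sq_nonneg (A.re + n - b), mul_nonneg (sub_nonneg.2 hν) (sq_nonneg (A.re + n - b))]
    · have hn : (3 : ℝ) ≤ n := by exact_mod_cast h3 hν
      have h4 : (A.re + n - b) ^ 2 ≤ (n : ℝ) ^ 2 := by
        have : 0 ≤ A.re + n - b := by linarith
        gcongr
        linarith
      have h5 : (n : ℝ) ^ 2 ≤ (n : ℝ) ^ 2 / q₀ * q := by
        rw [div_mul_eq_mul_div, le_div_iff₀ hq0]
        gcongr
      calc ν * ((A.re + n - b) ^ 2 + q) ≤ ν * ((1 + (n : ℝ) ^ 2 / q₀) * q) := by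
            gcongr
            linarith
        _ = ν * (1 + (n : ℝ) ^ 2 / q₀) * q := by ring
        _ ≤ (n - 5 / 2) * q := by gcongr
        _ ≤ (A.re + n - b) * q := mul_le_mul_of_nonneg_right (by linarith) hqp.le
  have : 2 * b / q * ν * ((A.re + n - b) ^ 2 + A.im ^ 2 + b ^ 2)
      = 2 * b / q * (ν * ((A.re + n - b) ^ 2 + q)) := by rw [hqd]; ring
  rw [this]
  calc 2 * b / q * (ν * ((A.re + n - b) ^ 2 + q)) ≤ 2 * b / q * ((A.re + n - b) * q) := by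
        gcongr
    _ = 2 * b * (A.re + n - b) := by field_simp

theorem scalar2 {τ τ₀ γ γ' ν e N u Q w N' : ℝ} (hτ0 : 0 < τ) (hτ : τ ≤ τ₀) (he : 0 < e)
    (hN : 0 < N) (hX : -(τ * γ * N) ≤ u) (huN : u ≤ N) (hQ : 0 < Q) (hw : -Q < w) (hwQ : w ≤ Q)
    (ht : τ * ν * Q ≤ w) (hγ : 0 ≤ γ) (hγ1 : τ₀ * γ < 1) (hγ' : 0 ≤ γ') (hγ2 : τ₀ * γ' ≤ 1)
    (hs : (1 + e) * (γ - ν) ≤ γ' * (1 - τ₀ ^ 2 * γ * max ν 0))
    (hNs : Q * N + w * u ≤ (1 + e) * N') : 0 < N' ∧ -(τ * γ' * N') ≤ Q * u + w * N := by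
  have hc1 : τ * γ < 1 := lt_of_le_of_lt (by gcongr) hγ1
  have hc' : τ * γ' ≤ 1 := le_trans (by gcongr) hγ2
  have he1 : 0 < 1 + e := by linarith
  have hk0 : 0 ≤ τ * γ' / (1 + e) := by positivity
  have hk1 : τ * γ' / (1 + e) ≤ 1 := by
    rw [div_le_one he1]
    linarith
  have hs' : τ * γ - τ * ν ≤ τ * γ' / (1 + e) * (1 - τ * γ * (τ * ν)) := by
    rw [div_mul_eq_mul_div, le_div_iff₀ he1]
    have h4 : τ * γ * (τ * ν) ≤ τ₀ ^ 2 * γ * max ν 0 := by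
      calc τ * γ * (τ * ν) = τ ^ 2 * γ * ν := by ring
        _ ≤ τ ^ 2 * γ * max ν 0 := by gcongr; exact le_max_left _ _
        _ ≤ τ₀ ^ 2 * γ * max ν 0 := by gcongr
    have h5 : γ' * (1 - τ₀ ^ 2 * γ * max ν 0) ≤ γ' * (1 - τ * γ * (τ * ν)) := by
      gcongr
    calc (τ * γ - τ * ν) * (1 + e) = τ * ((1 + e) * (γ - ν)) := by ring
      _ ≤ τ * (γ' * (1 - τ * γ * (τ * ν))) := mul_le_mul_of_nonneg_left (hs.trans h5) hτ0.le
      _ = τ * γ' * (1 - τ * γ * (τ * ν)) := by ring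
  have key := scalar hN hX hQ hw.le ht hk0 hk1 hc1.le hs'
  have hpos : 0 < Q * N + w * u := by
    rcases le_or_gt 0 w with hw0 | hw0
    · have h6 : -(τ * γ * N) * w ≤ u * w := by gcongr
      have h7 : τ * γ * N * w ≤ τ * γ * N * Q := by gcongr
      have h8 : 0 < (1 - τ * γ) * N * Q := by
        have : 0 < 1 - τ * γ := by linarith
        positivity
      linarith
    · have h6 : N * w ≤ u * w := mul_le_mul_of_nonpos_right huN hw0.le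
      have h7 : 0 < N * (Q + w) := mul_pos hN (by linarith)
      linarith
  refine ⟨pos_of_mul_pos_right (hpos.trans_le hNs) he1.le, ?_⟩
  have h9 : τ * γ' / (1 + e) * (Q * N + w * u) ≤ τ * γ' / (1 + e) * ((1 + e) * N') := by gcongr
  have h10 : τ * γ' / (1 + e) * ((1 + e) * N') = τ * γ' * N' := by field_simp
  linarith

theorem step (h : Lev A B Z P Y) (H : Par A B Z b e τ₀ q₀) (n : ℕ) {γ γ' ν : ℝ}
    (hI : Inv A b P Y n γ) (hγ : 0 ≤ γ) (hγ1 : τ₀ * γ < 1) (hγ' : 0 ≤ γ') (hγ2 : τ₀ * γ' ≤ 1)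
    (h1 : ν ≤ n - 5 / 2) (h2 : ν * (1 + (n : ℝ) ^ 2 / q₀) ≤ n - 5 / 2) (h3 : 0 < ν → 3 ≤ n)
    (hs : (1 + e) * (γ - ν) ≤ γ' * (1 - τ₀ ^ 2 * γ * max ν 0)) : Inv A b P Y (n + 1) γ' := by
  have hb := H.b10
  have hlo := H.lo
  have hb0 : 0 < b := by linarith
  have hn0 : (0 : ℝ) ≤ n := Nat.cast_nonneg n
  have hXs : 2 * b * XX b (P (n + 1)) (Y (n + 1))
      = ((A.re + n - b) ^ 2 + A.im ^ 2 + b ^ 2) * (2 * b * XX b (P n) (Y n))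
        + 2 * b * (A.re + n - b) * NN b (P n) (Y n) := by
    rw [X_succ h H.hb n]
    ring
  unfold Inv
  rw [hXs]
  refine scalar2 (by positivity) H.hτ H.he hI.1 hI.2 (two_mul_XX_le _ _ _) (by positivity) ?_ ?_
    (H.t_le n h1 h2 h3) hγ hγ1 hγ' hγ2 hs ?_
  · nlinarith [sq_nonneg (A.re + n - b), sq_nonneg A.im]
  · nlinarith [sq_nonneg (A.re + n - b - b), sq_nonneg A.im]
  · rw [← N_succ h H.hb n]
    exact shear H.he H.hZ _ _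

theorem scalar3 {τ γ ν N u Q w : ℝ} (hτ0 : 0 < τ) (hN : 0 < N) (hX : -(τ * γ * N) ≤ u)
    (hQ : 0 < Q) (ht : τ * ν * Q ≤ w) (hs : γ < ν) : 0 < Q * u + w * N := by
  have h4 : Q * -(τ * γ * N) ≤ Q * u := by gcongr
  have h5 : τ * ν * Q * N ≤ w * N := by gcongr
  have h6 : 0 < τ * (ν - γ) * Q * N := by
    have : 0 < ν - γ := by linarith
    positivity
  linarith

theorem last (h : Lev A B Z P Y) (H : Par A B Z b e τ₀ q₀) (n : ℕ) {γ ν : ℝ}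
    (hI : Inv A b P Y n γ) (h1 : ν ≤ n - 5 / 2) (h2 : ν * (1 + (n : ℝ) ^ 2 / q₀) ≤ n - 5 / 2)
    (h3 : 3 ≤ n) (hs : γ < ν) : 0 < XX b (P (n + 1)) (Y (n + 1)) := by
  have hb := H.b10
  have hb0 : 0 < b := by linarith
  have hXs : 2 * b * XX b (P (n + 1)) (Y (n + 1))
      = ((A.re + n - b) ^ 2 + A.im ^ 2 + b ^ 2) * (2 * b * XX b (P n) (Y n))
        + 2 * b * (A.re + n - b) * NN b (P n) (Y n) := by
    rw [X_succ h H.hb n]
    ring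
  have h7 : 0 < 2 * b * XX b (P (n + 1)) (Y (n + 1)) := by
    rw [hXs]
    exact scalar3 (by positivity) hI.1 hI.2 (by positivity) (H.t_le n h1 h2 fun _ => h3) hs
  exact pos_of_mul_pos_right h7 (by linarith)

end Vale.Agent.P139Z.AlgL
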